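import Vale.Agent.Lib.P072.VertSign
import Vale.Agent.Lib.P072.VertDeriv

/-!
# The corner property of a set of species with a family of laws
-/

namespace Vale.Agent.Lib.P072

open Set

set_option linter.unusedSectionVars false

variable {R R₁ R₂ ι : Type} [Fintype R] [Fintype R₁] [Fintype R₂] [Fintype ι]

/-- A function on `[0, ∞)` whose one-sided derivatives on `[t₀, t₁]` are nonpositive does not
increase from `t₀` to `t₁`. -/
private lemma vertCorner_antitone (f : ℝ → ℝ) {t₀ t₁ : ℝ} (ht₀ : 0 ≤ t₀) (h01 : t₀ ≤ t₁)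
    (h : ∀ s ∈ Icc t₀ t₁, ∃ D : ℝ, D ≤ 0 ∧ HasDerivWithinAt f D (Ici 0) s) :
    f t₁ ≤ f t₀ := by
  have key : ∀ s, ∃ D : ℝ, s ∈ Icc t₀ t₁ → D ≤ 0 ∧ HasDerivWithinAt f D (Ici 0) s := by
    intro s
    by_cases hs : s ∈ Icc t₀ t₁
    · obtain ⟨D, hD⟩ := h s hs
      exact ⟨D, fun _ => hD⟩
    · exact ⟨0, fun h' => absurd h' hs⟩
  choose D hD using key
  have hcont : ContinuousOn f (Icc t₀ t₁) := by
    intro s hs
    exact ((hD s hs).2.continuousWithinAt).mono (fun r hr => le_trans ht₀ hr.1)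
  have key2 := image_le_of_deriv_right_le_deriv_boundary (f := f) (f' := D) (a := t₀) (b := t₁)
    hcont
    (fun s hs => ((hD s ⟨hs.1, hs.2.le⟩).2).mono (Ici_subset_Ici.mpr (le_trans ht₀ hs.1)))
    (B := fun _ => f t₀) (B' := fun _ => 0)
    (le_refl _) continuousOn_const (fun s _ => hasDerivWithinAt_const _ _ _)
    (fun s hs => (hD s ⟨hs.1, hs.2.le⟩).1)
  exact key2 (right_mem_Icc.mpr h01)

/-- The function `s * (log a - log s + 1 + C)` is small for small positive `s`. -/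
private lemma vertCorner_small (a C τ : ℝ) (hτ : 0 < τ) :
    ∃ δ : ℝ, 0 < δ ∧ ∀ s : ℝ, 0 < s → s < δ →
      s * (Real.log a - Real.log s + 1 + C) < τ := by
  have hcont : Continuous (fun s : ℝ => s * (Real.log a + 1 + C) - s * Real.log s) :=
    (continuous_id.mul continuous_const).sub Real.continuous_mul_log
  have hca := hcont.continuousAt (x := (0 : ℝ))
  rw [Metric.continuousAt_iff] at hca
  obtain ⟨δ, hδ, hδ'⟩ := hca τ hτ
  refine ⟨δ, hδ, fun s hs0 hsδ => ?_⟩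
  have hd : dist s 0 < δ := by
    rw [Real.dist_eq, sub_zero, abs_of_pos hs0]
    exact hsδ
  have h := hδ' hd
  rw [Real.dist_eq] at h
  simp only [zero_mul, sub_zero] at h
  have h2 := (abs_lt.mp h).2
  have e : s * (Real.log a - Real.log s + 1 + C) =
      s * (Real.log a + 1 + C) - s * Real.log s := by ring
  rw [e]
  exact h2

/-- A nonempty set `W` of species with a family of laws of the complex-balanced system has the
corner property for the union. -/
theorem cornerProp_of_laws (N₁ : MAS R₁ ι) (N₂ : MAS R₂ ι) (xs : ι → ℝ) (hxs : ∀ i, 0 < xs i)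
    (h₁ : N₁.StronglyConnected) (hspan : N₂.stoich ≤ N₁.stoich) (h₂ : N₂.ComplexBalancedAt xs)
    (c : ι → ℝ) (hc : ∀ i, 0 < c i) (W : Finset ι) (hW : W.Nonempty) (u : ι → ι → ℝ)
    (hu : IsLawFamily N₂ W u) : CornerProp (N₁.union N₂) c W := by
  classical
  intro η b ρ₀ hη hρ₀
  obtain ⟨ρ₂, C₁, L, hρ₂, hC₁, hL, hbd⟩ :=
    vertV_bounds xs hxs W u (fun j hj => (hu j hj).2) η b hη
  obtain ⟨ρ₁, hρ₁, hsign⟩ :=
    vertV_deriv_nonpos N₁ N₂ xs hxs h₁ hspan h₂ c hc W hW u hu η b hη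
  obtain ⟨e, he, hele⟩ := exists_pos_le (fun i => xs i * Real.exp (-C₁))
    (fun i => mul_pos (hxs i) (Real.exp_pos _))
  obtain ⟨ρ, hρdef⟩ : ∃ ρ : ℝ, ρ = min (min (ρ₀ / 2) ρ₁) (min ρ₂ e) := ⟨_, rfl⟩
  have hρ0 : ρ ≤ ρ₀ / 2 := by
    rw [hρdef]
    exact le_trans (min_le_left _ _) (min_le_left _ _)
  have hρ1 : ρ ≤ ρ₁ := by
    rw [hρdef]
    exact le_trans (min_le_left _ _) (min_le_right _ _)
  have hρ2 : ρ ≤ ρ₂ := by
    rw [hρdef]
    exact le_trans (min_le_right _ _) (min_le_left _ _)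
  have hρe : ρ ≤ e := by
    rw [hρdef]
    exact le_trans (min_le_right _ _) (min_le_right _ _)
  have hρpos : 0 < ρ := by
    rw [hρdef]
    exact lt_min (lt_min (by linarith) hρ₁) (lt_min hρ₂ he)
  have hρlt : ρ < ρ₀ := by linarith
  -- upper bound of the corner function in the region
  have hA : ∀ y : ι → ℝ, (∀ i, 0 < y i) → (∀ i ∈ W, y i ≤ ρ) →
      (∀ j, j ∉ W → η ≤ y j ∧ y j ≤ b) → vertV xs W u y ≤ -∑ i ∈ W, y i := by
    intro y hy hyW hyr
    have hb := (hbd y hy (fun i hi => le_trans (hyW i hi) hρ2) hyr).2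
    have h1 := (abs_le.mp hb).2
    have h2 : ∑ i ∈ W, vterm (xs i) (y i) ≤ ∑ i ∈ W, y i * (-C₁ - 1) := by
      apply Finset.sum_le_sum
      intro i hi
      have hyi := hy i
      have hle : y i ≤ xs i * Real.exp (-C₁) := le_trans (hyW i hi) (le_trans hρe (hele i))
      have hlog : Real.log (y i) ≤ Real.log (xs i) - C₁ := by
        have h3 := Real.log_le_log hyi hle
        rw [Real.log_mul (hxs i).ne' (Real.exp_pos _).ne', Real.log_exp] at h3
        linarith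
      unfold vterm
      exact mul_le_mul_of_nonneg_left (by linarith) hyi.le
    have h3 : ∑ i ∈ W, y i * (-C₁ - 1) = (-C₁ - 1) * ∑ i ∈ W, y i := by
      rw [Finset.mul_sum]
      exact Finset.sum_congr rfl (fun i _ => mul_comm _ _)
    have h4 : (-C₁ - 1) * ∑ i ∈ W, y i + C₁ * ∑ i ∈ W, y i = -∑ i ∈ W, y i := by ring
    linarith
  -- lower bound of the corner function in the region
  have hB : ∀ y : ι → ℝ, (∀ i, 0 < y i) → (∀ i ∈ W, y i ≤ ρ) →
      (∀ j, j ∉ W → η ≤ y j ∧ y j ≤ b) →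
      -∑ i ∈ W, y i * (Real.log (xs i) - Real.log (y i) + 1 + C₁) ≤ vertV xs W u y := by
    intro y hy hyW hyr
    have hb := (hbd y hy (fun i hi => le_trans (hyW i hi) hρ2) hyr).2
    have h1 := (abs_le.mp hb).1
    have h2 : ∑ i ∈ W, vterm (xs i) (y i) - C₁ * ∑ i ∈ W, y i =
        -∑ i ∈ W, y i * (Real.log (xs i) - Real.log (y i) + 1 + C₁) := by
      rw [Finset.mul_sum, ← Finset.sum_sub_distrib, ← Finset.sum_neg_distrib]
      apply Finset.sum_congr rfl
      intro i _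
      unfold vterm
      ring
    linarith
  refine ⟨ρ, hρpos, hρlt, ?_⟩
  intro σ hσ
  obtain ⟨τ, hτdef⟩ : ∃ τ : ℝ, τ = σ / ((W.card : ℝ) + 1) := ⟨_, rfl⟩
  have hcard : (0 : ℝ) < (W.card : ℝ) + 1 := by positivity
  have hτ : 0 < τ := by
    rw [hτdef]
    exact div_pos hσ hcard
  have hδ : ∀ i : ι, ∃ δ : ℝ, 0 < δ ∧ ∀ s : ℝ, 0 < s → s < δ →
      s * (Real.log (xs i) - Real.log s + 1 + C₁) < τ :=
    fun i => vertCorner_small (xs i) C₁ τ hτ
  choose δ hδpos hδlt using hδ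
  obtain ⟨ε, hε, hεle⟩ := exists_pos_le δ hδpos
  refine ⟨ε, hε, ?_⟩
  intro x hsol hP t₀ t₁ ht₀ h01 hreg hex
  obtain ⟨i₀, hi₀W, hi₀⟩ := hex
  by_contra hcon
  push Not at hcon
  -- monotonicity of the corner function along the solution
  have hmono : vertV xs W u (x t₁) ≤ vertV xs W u (x t₀) := by
    refine vertCorner_antitone (fun τ' => vertV xs W u (x τ')) ht₀ h01 ?_
    intro s hs
    have hs0 : 0 ≤ s := le_trans ht₀ hs.1
    have hpos := (hP s hs0).1
    have hr := hreg s hs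
    have hb := hbd (x s) hpos (fun i hi => le_trans (hr.2 i hi) hρ2) hr.1
    have hl : ∀ j, j ∉ W → 0 < ∑ i, u j i * x s i := fun j hj => (hb.1 j hj).1
    refine ⟨_, ?_, hasDerivWithinAt_vertV xs W u (hsol s hs0) hpos hl⟩
    exact hsign (x s) (hP s hs0) (fun i hi => le_trans (hr.2 i hi) hρ1) hr.1
  have hpos0 := (hP t₀ ht₀).1
  have hr0 := hreg t₀ (left_mem_Icc.mpr h01)
  have hA0 := hA (x t₀) hpos0 hr0.2 hr0.1
  have hS0 : σ ≤ ∑ i ∈ W, x t₀ i :=
    le_trans hi₀ (Finset.single_le_sum (f := fun i => x t₀ i) (fun i _ => (hpos0 i).le) hi₀W)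
  have ht₁0 : 0 ≤ t₁ := le_trans ht₀ h01
  have hpos1 := (hP t₁ ht₁0).1
  have hr1 := hreg t₁ (right_mem_Icc.mpr h01)
  have hB1 := hB (x t₁) hpos1 hr1.2 hr1.1
  have hsum : ∑ i ∈ W, x t₁ i * (Real.log (xs i) - Real.log (x t₁ i) + 1 + C₁) ≤
      (W.card : ℝ) * τ := by
    have h5 := Finset.sum_le_card_nsmul W
      (fun i => x t₁ i * (Real.log (xs i) - Real.log (x t₁ i) + 1 + C₁)) τ
      (fun i hi => (hδlt i (x t₁ i) (hpos1 i) (lt_of_lt_of_le (hcon i hi) (hεle i))).le)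
    rw [nsmul_eq_mul] at h5
    exact h5
  have hlt : (W.card : ℝ) * τ < σ := by
    rw [hτdef, ← mul_div_assoc, div_lt_iff₀ hcard]
    linarith
  linarith

end Vale.Agent.Lib.P072
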